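import Mathlib
import Vale.Agent.Lib.P335.helper72.GraphDefs

/-!
Graph case of P335: the switch involution `tau x y z w` on the 4-cycle `x z y w`
(the pairs `xz, yw` are exchanged with `xw, yz` when exactly one of the two matchings is
present), as a map of `Omega n d`, with its basic properties, and the quantity `K`.
-/

namespace Vale.Agent.Lib.P335.H85

open Finset
open scoped Classical
open Vale.Agent.Lib.P335 Vale.Agent.Lib.P335.Bip Vale.Agent.Lib.P335.Gr

set_option linter.unusedSectionVars false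

variable {n : ℕ}

/-- The graph obtained from `G` by deleting the pairs `ab`, `ce` and inserting `ac`, `be`. -/
def swG (G : SimpleGraph (Fin n)) (a b c e : Fin n) : SimpleGraph (Fin n) :=
  SimpleGraph.fromEdgeSet ((G.edgeSet \ {s(a, b), s(c, e)}) ∪ {s(a, c), s(b, e)})

theorem swG_adj (G : SimpleGraph (Fin n)) {a b c e : Fin n} (hac : a ≠ c) (hbe : b ≠ e)
    (x y : Fin n) :
    (swG G a b c e).Adj x y ↔
      (G.Adj x y ∧ s(x, y) ≠ s(a, b) ∧ s(x, y) ≠ s(c, e)) ∨ s(x, y) = s(a, c) ∨
        s(x, y) = s(b, e) := by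
  unfold swG
  rw [SimpleGraph.fromEdgeSet_adj]
  simp only [Set.mem_union, Set.mem_sdiff, Set.mem_insert_iff, Set.mem_singleton_iff,
    SimpleGraph.mem_edgeSet, not_or]
  constructor
  · rintro ⟨h, -⟩
    exact h
  · intro h
    refine ⟨h, ?_⟩
    rcases h with ⟨h1, -, -⟩ | h | h
    · exact G.ne_of_adj h1
    · intro hxy
      subst hxy
      rcases Sym2.eq_iff.mp h with ⟨h1, h2⟩ | ⟨h1, h2⟩
      · exact hac (h1.symm.trans h2)
      · exact hac (h2.symm.trans h1)
    · intro hxy
      subst hxy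
      rcases Sym2.eq_iff.mp h with ⟨h1, h2⟩ | ⟨h1, h2⟩
      · exact hbe (h1.symm.trans h2)
      · exact hbe (h2.symm.trans h1)

section vertexwise

variable (G : SimpleGraph (Fin n)) {a b c e : Fin n}
  (hab : a ≠ b) (hac : a ≠ c) (hae : a ≠ e) (hbc : b ≠ c) (hbe : b ≠ e) (hce : c ≠ e)

include hab hac hae hbc hbe hce

theorem swG_adj_a (y : Fin n) :
    (swG G a b c e).Adj a y ↔ (G.Adj a y ∧ y ≠ b) ∨ y = c := by
  rw [swG_adj G hac hbe]
  simp only [Sym2.eq_iff, ne_eq]
  grind

theorem swG_adj_b (y : Fin n) :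
    (swG G a b c e).Adj b y ↔ (G.Adj b y ∧ y ≠ a) ∨ y = e := by
  rw [swG_adj G hac hbe]
  simp only [Sym2.eq_iff, ne_eq]
  grind

theorem swG_adj_c (y : Fin n) :
    (swG G a b c e).Adj c y ↔ (G.Adj c y ∧ y ≠ e) ∨ y = a := by
  rw [swG_adj G hac hbe]
  simp only [Sym2.eq_iff, ne_eq]
  grind

theorem swG_adj_e (y : Fin n) :
    (swG G a b c e).Adj e y ↔ (G.Adj e y ∧ y ≠ c) ∨ y = b := by
  rw [swG_adj G hac hbe]
  simp only [Sym2.eq_iff, ne_eq]
  grind

theorem swG_adj_other {v : Fin n} (hva : v ≠ a) (hvb : v ≠ b) (hvc : v ≠ c) (hve : v ≠ e)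
    (y : Fin n) : (swG G a b c e).Adj v y ↔ G.Adj v y := by
  rw [swG_adj G hac hbe]
  simp only [Sym2.eq_iff, ne_eq]
  grind

end vertexwise

theorem card_filter_exchange {P Q : Fin n → Prop} {x y : Fin n}
    (hQ : ∀ z, Q z ↔ (P z ∧ z ≠ x) ∨ z = y) (hx : P x) (hy : ¬ P y) :
    (univ.filter Q).card = (univ.filter P).card := by
  have hset : univ.filter Q = insert y ((univ.filter P).erase x) := by
    ext z
    simp only [mem_filter, mem_univ, true_and, mem_insert, mem_erase]
    rw [hQ z]
    tauto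
  have hxm : x ∈ univ.filter P := by simp [hx]
  have hym : y ∉ (univ.filter P).erase x := by simp [hy]
  rw [hset, card_insert_of_notMem hym, card_erase_of_mem hxm]
  have : 0 < (univ.filter P).card := card_pos.mpr ⟨x, hxm⟩
  omega

theorem degree_eq_card (G : SimpleGraph (Fin n)) (v : Fin n) :
    G.degree v = (univ.filter (fun w => G.Adj v w)).card := by
  unfold SimpleGraph.degree
  congr 1
  ext w
  simp

/-- A switch preserves all degrees. -/
theorem swG_degree (G : SimpleGraph (Fin n)) {a b c e : Fin n}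
    (hab : a ≠ b) (hac : a ≠ c) (hae : a ≠ e) (hbc : b ≠ c) (hbe : b ≠ e) (hce : c ≠ e)
    (gab : G.Adj a b) (gce : G.Adj c e) (nac : ¬ G.Adj a c) (nbe : ¬ G.Adj b e) (v : Fin n) :
    (swG G a b c e).degree v = G.degree v := by
  rw [degree_eq_card, degree_eq_card]
  by_cases hva : v = a
  · rw [hva]
    exact card_filter_exchange (swG_adj_a G hab hac hae hbc hbe hce) gab nac
  by_cases hvb : v = b
  · rw [hvb]
    exact card_filter_exchange (swG_adj_b G hab hac hae hbc hbe hce) gab.symm nbe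
  by_cases hvc : v = c
  · rw [hvc]
    exact card_filter_exchange (swG_adj_c G hab hac hae hbc hbe hce) gce
      (fun h => nac h.symm)
  by_cases hve : v = e
  · rw [hve]
    exact card_filter_exchange (swG_adj_e G hab hac hae hbc hbe hce) gce.symm
      (fun h => nbe h.symm)
  · congr 1
    ext y
    simp only [mem_filter, mem_univ, true_and]
    exact swG_adj_other G hab hac hae hbc hbe hce hva hvb hvc hve y

/-- Pairwise distinctness of four vertices. -/
structure Four (x y z w : Fin n) : Prop where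
  xy : x ≠ y
  xz : x ≠ z
  xw : x ≠ w
  yz : y ≠ z
  yw : y ≠ w
  zw : z ≠ w

/-- The cross block between `{x, y}` and `{z, w}` is exactly the matching `xz, yw`. -/
def Mat1 (x y z w : Fin n) (G : SimpleGraph (Fin n)) : Prop :=
  G.Adj x z ∧ G.Adj y w ∧ ¬ G.Adj x w ∧ ¬ G.Adj y z

/-- The switch on the 4-cycle `x z y w` at the level of graphs. -/
noncomputable def tauG (x y z w : Fin n) (G : SimpleGraph (Fin n)) : SimpleGraph (Fin n) :=
  if Mat1 x y z w G then swG G x z w y
  else if Mat1 x y w z G then swG G x w z y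
  else G

theorem tauG_pos {x y z w : Fin n} {G : SimpleGraph (Fin n)} (h : Mat1 x y z w G) :
    tauG x y z w G = swG G x z w y := by
  unfold tauG
  rw [if_pos h]

theorem tauG_pos' {x y z w : Fin n} {G : SimpleGraph (Fin n)} (h : Mat1 x y w z G) :
    tauG x y z w G = swG G x w z y := by
  unfold tauG
  have h1 : ¬ Mat1 x y z w G := fun h' => h.2.2.1 h'.1
  rw [if_neg h1, if_pos h]

theorem tauG_neg {x y z w : Fin n} {G : SimpleGraph (Fin n)} (h1 : ¬ Mat1 x y z w G)
    (h2 : ¬ Mat1 x y w z G) : tauG x y z w G = G := by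
  unfold tauG
  rw [if_neg h1, if_neg h2]

theorem tauG_degree {x y z w : Fin n} (h4 : Four x y z w) (G : SimpleGraph (Fin n)) (v : Fin n) :
    (tauG x y z w G).degree v = G.degree v := by
  by_cases h1 : Mat1 x y z w G
  · rw [tauG_pos h1]
    exact swG_degree G h4.xz h4.xw h4.xy h4.zw
      h4.yz.symm h4.yw.symm h1.1 h1.2.1.symm h1.2.2.1 (fun h => h1.2.2.2 h.symm) v
  · by_cases h2 : Mat1 x y w z G
    · rw [tauG_pos' h2]
      exact swG_degree G h4.xw h4.xz h4.xy h4.zw.symm h4.yw.symm h4.yz.symm h2.1 h2.2.1.symm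
        h2.2.2.1 (fun h => h2.2.2.2 h.symm) v
    · rw [tauG_neg h1 h2]

/-- Outside the four pairs `xz, yw, xw, yz` the switch changes nothing. -/
theorem tauG_adj_other {x y z w : Fin n} (h4 : Four x y z w) (G : SimpleGraph (Fin n))
    {a b : Fin n} (h1 : s(a, b) ≠ s(x, z)) (h2 : s(a, b) ≠ s(y, w)) (h3 : s(a, b) ≠ s(x, w))
    (h5 : s(a, b) ≠ s(y, z)) : (tauG x y z w G).Adj a b ↔ G.Adj a b := by
  have e1 : s(a, b) ≠ s(w, y) := by rw [Sym2.eq_swap (a := w)]; exact h2
  have e2 : s(a, b) ≠ s(z, y) := by rw [Sym2.eq_swap (a := z)]; exact h5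
  by_cases c1 : Mat1 x y z w G
  · rw [tauG_pos c1, swG_adj G h4.xw h4.yz.symm]
    tauto
  · by_cases c2 : Mat1 x y w z G
    · rw [tauG_pos' c2, swG_adj G h4.xz h4.yw.symm]
      tauto
    · rw [tauG_neg c1 c2]

/-- The switch does not change the pairs avoiding `x` and `y`. -/
theorem tauG_adj_off_xy {x y z w : Fin n} (h4 : Four x y z w) (G : SimpleGraph (Fin n))
    {a b : Fin n} (hax : a ≠ x) (hay : a ≠ y) (hbx : b ≠ x) (hby : b ≠ y) :
    (tauG x y z w G).Adj a b ↔ G.Adj a b := by
  apply tauG_adj_other h4 G <;> (rw [Ne, Sym2.eq_iff]; grind)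

/-- The switch does not change the pairs avoiding `z` and `w`. -/
theorem tauG_adj_off_zw {x y z w : Fin n} (h4 : Four x y z w) (G : SimpleGraph (Fin n))
    {a b : Fin n} (haz : a ≠ z) (haw : a ≠ w) (hbz : b ≠ z) (hbw : b ≠ w) :
    (tauG x y z w G).Adj a b ↔ G.Adj a b := by
  apply tauG_adj_other h4 G <;> (rw [Ne, Sym2.eq_iff]; grind)

/-- Adjacency at `x` after the switch, first matching. -/
theorem tauG_adj_x_pos {x y z w : Fin n} (h4 : Four x y z w) {G : SimpleGraph (Fin n)}
    (c1 : Mat1 x y z w G) (v : Fin n) :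
    (tauG x y z w G).Adj x v ↔ (G.Adj x v ∧ v ≠ z) ∨ v = w := by
  rw [tauG_pos c1]
  exact swG_adj_a G h4.xz h4.xw h4.xy h4.zw h4.yz.symm h4.yw.symm v

/-- Adjacency at `x` after the switch, second matching. -/
theorem tauG_adj_x_pos' {x y z w : Fin n} (h4 : Four x y z w) {G : SimpleGraph (Fin n)}
    (c2 : Mat1 x y w z G) (v : Fin n) :
    (tauG x y z w G).Adj x v ↔ (G.Adj x v ∧ v ≠ w) ∨ v = z := by
  rw [tauG_pos' c2]
  exact swG_adj_a G h4.xw h4.xz h4.xy h4.zw.symm h4.yw.symm h4.yz.symm v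

/-- Adjacency at `y` after the switch, first matching. -/
theorem tauG_adj_y_pos {x y z w : Fin n} (h4 : Four x y z w) {G : SimpleGraph (Fin n)}
    (c1 : Mat1 x y z w G) (v : Fin n) :
    (tauG x y z w G).Adj y v ↔ (G.Adj y v ∧ v ≠ w) ∨ v = z := by
  rw [tauG_pos c1]
  exact swG_adj_e G h4.xz h4.xw h4.xy h4.zw h4.yz.symm h4.yw.symm v

/-- Adjacency at `y` after the switch, second matching. -/
theorem tauG_adj_y_pos' {x y z w : Fin n} (h4 : Four x y z w) {G : SimpleGraph (Fin n)}
    (c2 : Mat1 x y w z G) (v : Fin n) :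
    (tauG x y z w G).Adj y v ↔ (G.Adj y v ∧ v ≠ z) ∨ v = w := by
  rw [tauG_pos' c2]
  exact swG_adj_e G h4.xw h4.xz h4.xy h4.zw.symm h4.yw.symm h4.yz.symm v

/-- After the switch of the first matching, the second matching is present. -/
theorem tauG_mat1 {x y z w : Fin n} (h4 : Four x y z w) {G : SimpleGraph (Fin n)}
    (c1 : Mat1 x y z w G) : Mat1 x y w z (tauG x y z w G) := by
  refine ⟨?_, ?_, ?_, ?_⟩
  · exact (tauG_adj_x_pos h4 c1 w).mpr (Or.inr rfl)
  · exact (tauG_adj_y_pos h4 c1 z).mpr (Or.inr rfl)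
  · intro h
    rcases (tauG_adj_x_pos h4 c1 z).mp h with ⟨-, h⟩ | h
    · exact h rfl
    · exact h4.zw h
  · intro h
    rcases (tauG_adj_y_pos h4 c1 w).mp h with ⟨-, h⟩ | h
    · exact h rfl
    · exact h4.zw h.symm

/-- After the switch of the second matching, the first matching is present. -/
theorem tauG_mat1' {x y z w : Fin n} (h4 : Four x y z w) {G : SimpleGraph (Fin n)}
    (c2 : Mat1 x y w z G) : Mat1 x y z w (tauG x y z w G) := by
  refine ⟨?_, ?_, ?_, ?_⟩
  · exact (tauG_adj_x_pos' h4 c2 z).mpr (Or.inr rfl)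
  · exact (tauG_adj_y_pos' h4 c2 w).mpr (Or.inr rfl)
  · intro h
    rcases (tauG_adj_x_pos' h4 c2 w).mp h with ⟨-, h⟩ | h
    · exact h rfl
    · exact h4.zw h.symm
  · intro h
    rcases (tauG_adj_y_pos' h4 c2 z).mp h with ⟨-, h⟩ | h
    · exact h rfl
    · exact h4.zw h

theorem swG_swG (G : SimpleGraph (Fin n)) {a b c e : Fin n}
    (hab : a ≠ b) (hac : a ≠ c) (hbe : b ≠ e) (hce : c ≠ e)
    (gab : G.Adj a b) (gce : G.Adj c e) (nac : ¬ G.Adj a c) (nbe : ¬ G.Adj b e) :
    swG (swG G a b c e) a c b e = G := by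
  ext u v
  rw [swG_adj _ hab hce, swG_adj G hac hbe]
  have key : ∀ p q : Fin n, s(u, v) = s(p, q) → (G.Adj u v ↔ G.Adj p q) := by
    intro p q h
    rw [← SimpleGraph.mem_edgeSet, ← SimpleGraph.mem_edgeSet, h]
  have k1 := key a b
  have k2 := key c e
  have k3 := key a c
  have k4 := key b e
  grind

/-- The switch is an involution. -/
theorem tauG_invol {x y z w : Fin n} (h4 : Four x y z w) (G : SimpleGraph (Fin n)) :
    tauG x y z w (tauG x y z w G) = G := by
  by_cases c1 : Mat1 x y z w G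
  · rw [tauG_pos' (tauG_mat1 h4 c1), tauG_pos c1]
    exact swG_swG G h4.xz h4.xw h4.yz.symm h4.yw.symm c1.1 c1.2.1.symm c1.2.2.1
      (fun h => c1.2.2.2 h.symm)
  · by_cases c2 : Mat1 x y w z G
    · rw [tauG_pos (tauG_mat1' h4 c2), tauG_pos' c2]
      exact swG_swG G h4.xw h4.xz h4.yw.symm h4.yz.symm c2.1 c2.2.1.symm c2.2.2.1
        (fun h => c2.2.2.2 h.symm)
    · rw [tauG_neg c1 c2, tauG_neg c1 c2]

/-- The switch fixes `G` exactly when neither matching is present. -/
theorem tauG_eq_self_iff {x y z w : Fin n} (h4 : Four x y z w) (G : SimpleGraph (Fin n)) :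
    tauG x y z w G = G ↔ ¬ Mat1 x y z w G ∧ ¬ Mat1 x y w z G := by
  constructor
  · intro h
    constructor
    · intro c1
      have := (tauG_mat1 h4 c1).2.2.1
      rw [h] at this
      exact this c1.1
    · intro c2
      have := (tauG_mat1' h4 c2).2.2.1
      rw [h] at this
      exact this c2.1
  · rintro ⟨c1, c2⟩
    exact tauG_neg c1 c2

/-- If `z` or `w` is joined to both or to none of `x, y`, the switch does nothing. -/
theorem tauG_of_inactive {x y z w : Fin n} (G : SimpleGraph (Fin n))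
    (h : (G.Adj x z ↔ G.Adj y z) ∨ (G.Adj x w ↔ G.Adj y w)) : tauG x y z w G = G := by
  apply tauG_neg
  · rintro ⟨a1, a2, a3, a4⟩
    tauto
  · rintro ⟨a1, a2, a3, a4⟩
    tauto

/-- For active `z, w` the switch fixes `G` iff `x` is joined to both or to none of `z, w`. -/
theorem tauG_fix {x y z w : Fin n} (h4 : Four x y z w) (G : SimpleGraph (Fin n))
    (hz : ¬ (G.Adj x z ↔ G.Adj y z)) (hw : ¬ (G.Adj x w ↔ G.Adj y w)) :
    tauG x y z w G = G ↔ (G.Adj x z ↔ G.Adj x w) := by
  rw [tauG_eq_self_iff h4]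
  unfold Mat1
  tauto

/-- For active `z, w` the switch acts on the neighbourhood of `x` as the transposition of
`z` and `w`. -/
theorem tauG_bit {x y z w : Fin n} (h4 : Four x y z w) (G : SimpleGraph (Fin n))
    (hz : ¬ (G.Adj x z ↔ G.Adj y z)) (hw : ¬ (G.Adj x w ↔ G.Adj y w)) (v : Fin n) :
    (tauG x y z w G).Adj x v ↔ G.Adj x (Equiv.swap z w v) := by
  by_cases c1 : Mat1 x y z w G
  · rw [tauG_adj_x_pos h4 c1]
    obtain ⟨a1, a2, a3, a4⟩ := c1
    by_cases hvz : v = z
    · subst hvz
      rw [Equiv.swap_apply_left]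
      have := h4.zw
      tauto
    · by_cases hvw : v = w
      · subst hvw
        rw [Equiv.swap_apply_right]
        tauto
      · rw [Equiv.swap_apply_of_ne_of_ne hvz hvw]
        tauto
  · by_cases c2 : Mat1 x y w z G
    · rw [tauG_adj_x_pos' h4 c2]
      obtain ⟨a1, a2, a3, a4⟩ := c2
      by_cases hvz : v = z
      · subst hvz
        rw [Equiv.swap_apply_left]
        tauto
      · by_cases hvw : v = w
        · subst hvw
          rw [Equiv.swap_apply_right]
          have := h4.zw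
          tauto
        · rw [Equiv.swap_apply_of_ne_of_ne hvz hvw]
          tauto
    · rw [tauG_neg c1 c2]
      have hfix := (tauG_fix h4 G hz hw).mp (tauG_neg c1 c2)
      by_cases hvz : v = z
      · subst hvz
        rw [Equiv.swap_apply_left]
        exact hfix
      · by_cases hvw : v = w
        · subst hvw
          rw [Equiv.swap_apply_right]
          exact hfix.symm
        · rw [Equiv.swap_apply_of_ne_of_ne hvz hvw]

theorem swG_comm1 (G : SimpleGraph (Fin n)) (a b c e : Fin n) :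
    swG G b a e c = swG G a b c e := by
  unfold swG
  rw [Sym2.eq_swap (a := b) (b := a), Sym2.eq_swap (a := e) (b := c),
    Sym2.eq_swap (a := b) (b := e), Set.pair_comm s(e, b) s(a, c)]

theorem swG_comm2 (G : SimpleGraph (Fin n)) (a b c e : Fin n) :
    swG G c e a b = swG G a b c e := by
  unfold swG
  rw [Sym2.eq_swap (a := c) (b := a), Sym2.eq_swap (a := e) (b := b),
    Set.pair_comm s(c, e) s(a, b)]

theorem mat1_comm {x y z w : Fin n} {G : SimpleGraph (Fin n)} :
    Mat1 z w x y G ↔ Mat1 x y z w G := by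
  unfold Mat1
  rw [G.adj_comm z x, G.adj_comm w y, G.adj_comm z y, G.adj_comm w x]
  tauto

/-- The switch does not depend on which of the two pairs is named first. -/
theorem tauG_comm (x y z w : Fin n) (G : SimpleGraph (Fin n)) :
    tauG z w x y G = tauG x y z w G := by
  by_cases c1 : Mat1 x y z w G
  · rw [tauG_pos c1, tauG_pos (mat1_comm.mpr c1)]
    exact swG_comm1 G x z w y
  · by_cases c2 : Mat1 x y w z G
    · have c2' : Mat1 z w y x G := by
        unfold Mat1 at c2 ⊢
        rw [G.adj_comm z y, G.adj_comm w x, G.adj_comm z x, G.adj_comm w y]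
        tauto
      rw [tauG_pos' c2, tauG_pos' c2']
      exact swG_comm2 G x w z y
    · have c1' : ¬ Mat1 z w x y G := fun h => c1 (mat1_comm.mp h)
      have c2' : ¬ Mat1 z w y x G := by
        intro h
        apply c2
        unfold Mat1 at h ⊢
        rw [G.adj_comm z y, G.adj_comm w x, G.adj_comm z x, G.adj_comm w y] at h
        tauto
      rw [tauG_neg c1 c2, tauG_neg c1' c2']

theorem four_comm {x y z w : Fin n} (h : Four x y z w) : Four z w x y :=
  ⟨h.zw, h.xz.symm, h.yz.symm, h.xw.symm, h.yw.symm, h.xy⟩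

variable {d : Fin n → ℕ}

/-- The switch involution on the 4-cycle `x z y w` as a map of `Omega n d`
(the identity unless the four vertices are pairwise distinct). -/
noncomputable def tau (x y z w : Fin n) (G : Omega n d) : Omega n d :=
  if h : Four x y z w then
    ⟨tauG x y z w G.1, fun v => (tauG_degree h G.1 v).trans (G.2 v)⟩
  else G

theorem tau_val {x y z w : Fin n} (h : Four x y z w) (G : Omega n d) :
    (tau x y z w G).1 = tauG x y z w G.1 := by
  unfold tau
  rw [dif_pos h]

theorem tau_of_not {x y z w : Fin n} (h : ¬ Four x y z w) (G : Omega n d) :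
    tau x y z w G = G := by
  unfold tau
  rw [dif_neg h]

/-- `tau` is an involution. -/
theorem tau_invol (x y z w : Fin n) (G : Omega n d) : tau x y z w (tau x y z w G) = G := by
  by_cases h : Four x y z w
  · apply Subtype.ext
    rw [tau_val h, tau_val h]
    exact tauG_invol h G.1
  · rw [tau_of_not h, tau_of_not h]

/-- `tau x y z w` does not change `G - {x, y}`. -/
theorem tau_gmask_xy (x y z w : Fin n) (G : Omega n d) :
    gmask {x, y} (tau x y z w G).1 = gmask {x, y} G.1 := by
  by_cases h : Four x y z w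
  · rw [tau_val h, gmask_eq_iff]
    intro a b ha hb
    simp only [Finset.mem_insert, Finset.mem_singleton, not_or] at ha hb
    exact tauG_adj_off_xy h G.1 ha.1 ha.2 hb.1 hb.2
  · rw [tau_of_not h]

/-- `tau x y z w` does not change `G - {z, w}`. -/
theorem tau_gmask_zw (x y z w : Fin n) (G : Omega n d) :
    gmask {z, w} (tau x y z w G).1 = gmask {z, w} G.1 := by
  by_cases h : Four x y z w
  · rw [tau_val h, gmask_eq_iff]
    intro a b ha hb
    simp only [Finset.mem_insert, Finset.mem_singleton, not_or] at ha hb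
    exact tauG_adj_off_zw h G.1 ha.1 ha.2 hb.1 hb.2
  · rw [tau_of_not h]

/-- `tau` fixes `G` exactly when neither matching is present. -/
theorem tau_eq_self_iff {x y z w : Fin n} (h4 : Four x y z w) (G : Omega n d) :
    tau x y z w G = G ↔ ¬ Mat1 x y z w G.1 ∧ ¬ Mat1 x y w z G.1 := by
  rw [← tauG_eq_self_iff h4, ← tau_val h4]
  exact Subtype.ext_iff

/-- If `z` or `w` is joined to both or to none of `x, y`, then `tau` does nothing. -/
theorem tau_of_inactive (x y z w : Fin n) (G : Omega n d)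
    (h : (G.1.Adj x z ↔ G.1.Adj y z) ∨ (G.1.Adj x w ↔ G.1.Adj y w)) : tau x y z w G = G := by
  by_cases h4 : Four x y z w
  · apply Subtype.ext
    rw [tau_val h4]
    exact tauG_of_inactive G.1 h
  · rw [tau_of_not h4]

/-- For active `z, w`, `tau` fixes `G` iff `x` is joined to both or to none of `z, w`. -/
theorem tau_fix {x y z w : Fin n} (h4 : Four x y z w) (G : Omega n d)
    (hz : ¬ (G.1.Adj x z ↔ G.1.Adj y z)) (hw : ¬ (G.1.Adj x w ↔ G.1.Adj y w)) :
    tau x y z w G = G ↔ (G.1.Adj x z ↔ G.1.Adj x w) := by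
  rw [← tauG_fix h4 G.1 hz hw, ← tau_val h4]
  exact Subtype.ext_iff

/-- For active `z, w`, `tau` acts on the neighbourhood of `x` as the transposition of
`z` and `w`. -/
theorem tau_bit {x y z w : Fin n} (h4 : Four x y z w) (G : Omega n d)
    (hz : ¬ (G.1.Adj x z ↔ G.1.Adj y z)) (hw : ¬ (G.1.Adj x w ↔ G.1.Adj y w)) (v : Fin n) :
    (tau x y z w G).1.Adj x v ↔ G.1.Adj x (Equiv.swap z w v) := by
  rw [tau_val h4]
  exact tauG_bit h4 G.1 hz hw v

/-- `tau` does not depend on which of the two pairs is named first. -/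
theorem tau_comm (x y z w : Fin n) (G : Omega n d) : tau z w x y G = tau x y z w G := by
  by_cases h : Four x y z w
  · apply Subtype.ext
    rw [tau_val h, tau_val (four_comm h)]
    exact tauG_comm x y z w G.1
  · have h' : ¬ Four z w x y := fun h' => h (four_comm h')
    rw [tau_of_not h, tau_of_not h']

/-- The conditioning map of the correction term: `G - {x, y}` together with the information
whether `tau x y z w` moves `G`. -/
noncomputable def kapX (x y z w : Fin n) (G : Omega n d) : SimpleGraph (Fin n) × Bool :=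
  (gmask {x, y} G.1, decide (tau x y z w G ≠ G))

/-- The correction term `K_{p;q}(f)` for `p = {x, y}`, `q = {z, w}`:
`‖ 1_X (E[f | G - p, 1_X] - E[f | G - p]) ‖ ^ 2` with `X = {G | tau x y z w G ≠ G}`. -/
noncomputable def K (x y z w : Fin n) (f : Omega n d → ℝ) : ℝ :=
  ∑ G : Omega n d, if tau x y z w G ≠ G then
    (cexp (kapX x y z w) f G - GR {x, y} f G) ^ 2 else 0

end Vale.Agent.Lib.P335.H85
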