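import Mathlib
import Vale.Agent.Lib.P335.helper26.Abstract

/-!
Graph case of P335, abstract block: the local-to-global lemma for pair projections on a
complete graph of sites WITHOUT commutation of disjoint pairs.  The commutation hypothesis of
`Bip.knabe` is replaced by a lower bound on the sum of the products of disjoint pairs.

* `knabe_par` : triples have no spectrum in `(0, 1)` and
  `c * ∑_p ⟨f, P_p f⟩ ≤ ∑_{p, q disjoint} ⟨P_p f, P_q f⟩` give `(1 + c) ⟨f, H f⟩ ≤ ⟨H f, H f⟩`.
* `gap_of_sq_const` : `κ ⟨f, H f⟩ ≤ ⟨H f, H f⟩` for all `f` gives `κ (1 - Pi) ≤ H`.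
* `gap_of_knabe_par` : the two combined.
-/

namespace Vale.Agent.Lib.P335.H85

open Finset
open Vale.Agent.Lib.P335.Bip

section knabe

variable {Ω : Type*} [Fintype Ω]

variable {ι : Type*} [Fintype ι] [DecidableEq ι]

/-- Local-to-global lemma for pair projections, with the sum over ordered disjoint pairs of
`⟨P_p f, P_q f⟩` bounded below by `c * ∑_p ⟨f, P_p f⟩` instead of commutation. -/
theorem knabe_par (P Q : Finset ι → (Ω → ℝ) →ₗ[ℝ] (Ω → ℝ)) (c : ℝ)
    (hsymm : ∀ p, p.card = 2 → ∀ f g, ip f (P p g) = ip (P p f) g)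
    (hidem : ∀ p, p.card = 2 → ∀ f, P p (P p f) = P p f)
    (hQsymm : ∀ T, T.card = 3 → ∀ f g, ip f (Q T g) = ip (Q T f) g)
    (hQidem : ∀ T, T.card = 3 → ∀ f, Q T (Q T f) = Q T f)
    (hPQ : ∀ T, T.card = 3 → ∀ p ∈ T.powersetCard 2, ∀ f, P p (Q T f) = 0)
    (htriple : ∀ T, T.card = 3 → ∀ f,
      ip f f - ip f (Q T f) ≤ ∑ p ∈ T.powersetCard 2, ip f (P p f))
    (f : Ω → ℝ)
    (hpar : c * ∑ p ∈ (univ : Finset ι).powersetCard 2, ip f (P p f) ≤
      ∑ p ∈ (univ : Finset ι).powersetCard 2, ∑ q ∈ (univ : Finset ι).powersetCard 2,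
        (if Disjoint p q then ip (P p f) (P q f) else 0)) :
    (1 + c) * ip f (∑ p ∈ (univ : Finset ι).powersetCard 2, P p f) ≤
      ip (∑ p ∈ (univ : Finset ι).powersetCard 2, P p f)
        (∑ p ∈ (univ : Finset ι).powersetCard 2, P p f) := by
  classical
  set PP : Finset (Finset ι) := (univ : Finset ι).powersetCard 2 with hPP
  set TT : Finset (Finset ι) := (univ : Finset ι).powersetCard 3 with hTT
  have hc2 : ∀ p ∈ PP, p.card = 2 := fun p hp => (Finset.mem_powersetCard.mp hp).2
  have hc3 : ∀ T ∈ TT, T.card = 3 := fun T hT => (Finset.mem_powersetCard.mp hT).2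
  set a : Finset ι → Finset ι → ℝ := fun p q => ip (P p f) (P q f) with ha
  -- expansion of the square
  have hexp : ip (∑ p ∈ PP, P p f) (∑ p ∈ PP, P p f) = ∑ p ∈ PP, ∑ q ∈ PP, a p q := by
    rw [ip_sum_left]
    refine Finset.sum_congr rfl (fun p _ => ?_)
    rw [ip_sum_right]
  have hlin : ip f (∑ p ∈ PP, P p f) = ∑ p ∈ PP, a p p := by
    rw [ip_sum_right]
    refine Finset.sum_congr rfl (fun p hp => ?_)
    rw [ha]
    simp only
    rw [← hsymm p (hc2 p hp), hidem p (hc2 p hp)]
  -- triple sums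
  have htrip : ∀ T ∈ TT, 0 ≤ ∑ p ∈ T.powersetCard 2, ∑ q ∈ T.powersetCard 2,
      (if p = q then 0 else a p q) := by
    intro T hT
    have h3 := hc3 T hT
    set S : (Ω → ℝ) →ₗ[ℝ] (Ω → ℝ) := ∑ p ∈ T.powersetCard 2, P p with hS
    have hSapp : ∀ g, S g = ∑ p ∈ T.powersetCard 2, P p g := by
      intro g
      rw [hS, LinearMap.sum_apply]
    have hc2T : ∀ p ∈ T.powersetCard 2, p.card = 2 := fun p hp => (Finset.mem_powersetCard.mp hp).2
    have hSsymm : ∀ g h, ip g (S h) = ip (S g) h := by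
      intro g h
      rw [hSapp, hSapp, ip_sum_right, ip_sum_left]
      exact Finset.sum_congr rfl (fun p hp => hsymm p (hc2T p hp) g h)
    have hSQ : ∀ g, S (Q T g) = 0 := by
      intro g
      rw [hSapp]
      exact Finset.sum_eq_zero (fun p hp => hPQ T h3 p hp g)
    have hdom : ∀ g, ip g g - ip g (Q T g) ≤ ip g (S g) := by
      intro g
      rw [hSapp, ip_sum_right]
      exact htriple T h3 g
    have hloc := local_sq S (Q T) hSsymm (hQsymm T h3) (hQidem T h3) hSQ hdom f
    have e1 : ip (S f) (S f) = ∑ p ∈ T.powersetCard 2, ∑ q ∈ T.powersetCard 2, a p q := by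
      rw [hSapp, ip_sum_left]
      refine Finset.sum_congr rfl (fun p _ => ?_)
      rw [ip_sum_right]
    have e2 : ip f (S f) = ∑ p ∈ T.powersetCard 2, a p p := by
      rw [hSapp, ip_sum_right]
      refine Finset.sum_congr rfl (fun p hp => ?_)
      rw [ha]
      simp only
      rw [← hsymm p (hc2T p hp), hidem p (hc2T p hp)]
    have e3 : ∑ p ∈ T.powersetCard 2, ∑ q ∈ T.powersetCard 2, (if p = q then 0 else a p q)
        = (∑ p ∈ T.powersetCard 2, ∑ q ∈ T.powersetCard 2, a p q)
          - ∑ p ∈ T.powersetCard 2, a p p := by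
      rw [← Finset.sum_sub_distrib]
      refine Finset.sum_congr rfl (fun p hp => ?_)
      have : ∑ q ∈ T.powersetCard 2, (if p = q then 0 else a p q)
          = ∑ q ∈ T.powersetCard 2, (a p q - if p = q then a p q else 0) := by
        refine Finset.sum_congr rfl (fun q _ => ?_)
        split_ifs <;> simp
      rw [this, Finset.sum_sub_distrib, Finset.sum_ite_eq, if_pos hp]
    rw [e3, ← e1, ← e2]
    linarith
  -- regrouping of the overlapping ordered pairs by their union
  have hregroup : ∑ T ∈ TT, ∑ p ∈ T.powersetCard 2, ∑ q ∈ T.powersetCard 2,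
      (if p = q then 0 else a p q)
      = ∑ p ∈ PP, ∑ q ∈ PP, (if p = q then 0 else if Disjoint p q then 0 else a p q) := by
    have step : ∀ T ∈ TT, ∑ p ∈ T.powersetCard 2, ∑ q ∈ T.powersetCard 2,
        (if p = q then 0 else a p q)
        = ∑ p ∈ PP, ∑ q ∈ PP, (if p ⊆ T ∧ q ⊆ T then (if p = q then 0 else a p q) else 0) := by
      intro T _
      have hsub : T.powersetCard 2 = PP.filter (fun p => p ⊆ T) := by
        ext p
        simp only [hPP, Finset.mem_powersetCard, Finset.mem_filter, Finset.subset_univ, true_and]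
        tauto
      rw [hsub, Finset.sum_filter]
      refine Finset.sum_congr rfl (fun p _ => ?_)
      by_cases hpT : p ⊆ T
      · rw [if_pos hpT, Finset.sum_filter]
        refine Finset.sum_congr rfl (fun q _ => ?_)
        by_cases hqT : q ⊆ T
        · rw [if_pos hqT, if_pos (show p ⊆ T ∧ q ⊆ T from ⟨hpT, hqT⟩)]
        · rw [if_neg hqT, if_neg (show ¬ (p ⊆ T ∧ q ⊆ T) from fun h => hqT h.2)]
      · rw [if_neg hpT]
        symm
        exact Finset.sum_eq_zero (fun q _ => if_neg (show ¬ (p ⊆ T ∧ q ⊆ T) from fun h => hpT h.1))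
    rw [Finset.sum_congr rfl step, Finset.sum_comm]
    refine Finset.sum_congr rfl (fun p hp => ?_)
    rw [Finset.sum_comm]
    refine Finset.sum_congr rfl (fun q hq => ?_)
    by_cases hpq : p = q
    · simp [hpq]
    · rw [if_neg hpq]
      have hcount := triple_count (hc2 p hp) (hc2 q hq) hpq
      rw [← Finset.sum_filter, Finset.sum_const, nsmul_eq_mul, ← hTT, if_neg hpq] at *
      rw [hcount]
      split_ifs <;> simp
  -- conclusion
  have hsplit : ∑ p ∈ PP, ∑ q ∈ PP, a p q
      = (∑ p ∈ PP, a p p)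
        + (∑ p ∈ PP, ∑ q ∈ PP, (if p = q then 0 else if Disjoint p q then 0 else a p q))
        + ∑ p ∈ PP, ∑ q ∈ PP, (if p = q then 0 else if Disjoint p q then a p q else 0) := by
    rw [← Finset.sum_add_distrib, ← Finset.sum_add_distrib]
    refine Finset.sum_congr rfl (fun p hp => ?_)
    have : ∑ q ∈ PP, a p q = ∑ q ∈ PP, ((if p = q then a p q else 0)
        + (if p = q then 0 else if Disjoint p q then 0 else a p q)
        + (if p = q then 0 else if Disjoint p q then a p q else 0)) := by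
      refine Finset.sum_congr rfl (fun q _ => ?_)
      split_ifs <;> simp
    rw [this, Finset.sum_add_distrib, Finset.sum_add_distrib, Finset.sum_ite_eq, if_pos hp]
  have hpos1 : 0 ≤ ∑ p ∈ PP, ∑ q ∈ PP,
      (if p = q then 0 else if Disjoint p q then 0 else a p q) := by
    rw [← hregroup]
    exact Finset.sum_nonneg htrip
  have hpar2 : c * ∑ p ∈ PP, a p p ≤ ∑ p ∈ PP, ∑ q ∈ PP,
      (if p = q then 0 else if Disjoint p q then a p q else 0) := by
    have e1 : ∑ p ∈ PP, ip f (P p f) = ∑ p ∈ PP, a p p := by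
      refine Finset.sum_congr rfl (fun p hp => ?_)
      rw [ha]
      simp only
      rw [← hsymm p (hc2 p hp), hidem p (hc2 p hp)]
    have e2 : ∑ p ∈ PP, ∑ q ∈ PP, (if Disjoint p q then ip (P p f) (P q f) else 0)
        = ∑ p ∈ PP, ∑ q ∈ PP, (if p = q then 0 else if Disjoint p q then a p q else 0) := by
      refine Finset.sum_congr rfl (fun p hp => Finset.sum_congr rfl (fun q hq => ?_))
      by_cases hpq : p = q
      · rw [if_pos hpq]
        subst hpq
        have hne : ¬ Disjoint p p := by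
          rw [disjoint_self]
          intro h0
          have h2 := hc2 p hp
          rw [h0] at h2
          simp at h2
        rw [if_neg hne]
      · rw [if_neg hpq]
    rw [hPP] at e1 e2
    rw [← hPP] at e1 e2
    rw [← e1, ← e2]
    exact hpar
  rw [hexp, hlin, hsplit]
  linarith

end knabe

section gap

variable {Ω : Type*} [Fintype Ω] [DecidableEq Ω]

/-- Gap statement with a constant: a symmetric nonnegative `H` with `κ H ≤ H ^ 2` (`κ > 0`)
dominates `κ (1 - Pi)`, where `Pi` is a symmetric map with `H ∘ Pi = 0` that fixes the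
kernel of `H`. -/
theorem gap_of_sq_const (H Pi : (Ω → ℝ) →ₗ[ℝ] (Ω → ℝ)) (κ : ℝ) (hκ : 0 < κ)
    (hH : ∀ f g, ip f (H g) = ip (H f) g) (hPi : ∀ f g, ip f (Pi g) = ip (Pi f) g)
    (hHPi : ∀ f, H (Pi f) = 0)
    (hnn : ∀ f, 0 ≤ ip f (H f))
    (hsq : ∀ f, κ * ip f (H f) ≤ ip (H f) (H f))
    (hker : ∀ f, H f = 0 → Pi f = f)
    (f : Ω → ℝ) : κ * (ip f f - ip f (Pi f)) ≤ ip f (H f) := by
  have hκne : κ ≠ 0 := ne_of_gt hκ
  have happ : ∀ g, (κ⁻¹ • H) g = κ⁻¹ • H g := fun g => LinearMap.smul_apply _ _ _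
  have key := gap_of_sq (κ⁻¹ • H) Pi
    (by
      intro g h
      rw [happ, happ, ip_smul_right, ip_smul_left, hH])
    hPi
    (by
      intro g
      rw [happ, hHPi, smul_zero])
    (by
      intro g
      rw [happ, ip_smul_right]
      exact mul_nonneg (le_of_lt (inv_pos.mpr hκ)) (hnn g))
    (by
      intro g
      rw [happ, ip_smul_right, ip_smul_left, ip_smul_right]
      have h1 := hsq g
      have h2 : κ⁻¹ * ip g (H g) = κ⁻¹ * (κ⁻¹ * (κ * ip g (H g))) := by
        field_simp
      rw [h2]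
      exact mul_le_mul_of_nonneg_left
        (mul_le_mul_of_nonneg_left h1 (le_of_lt (inv_pos.mpr hκ))) (le_of_lt (inv_pos.mpr hκ)))
    (by
      intro g hg
      rw [happ] at hg
      rcases smul_eq_zero.mp hg with h0 | h0
      · exact absurd h0 (inv_ne_zero hκne)
      · exact hker g h0)
    f
  rw [happ, ip_smul_right] at key
  have h3 : κ * (κ⁻¹ * ip f (H f)) = ip f (H f) := by
    field_simp
  calc κ * (ip f f - ip f (Pi f)) ≤ κ * (κ⁻¹ * ip f (H f)) :=
        mul_le_mul_of_nonneg_left key (le_of_lt hκ)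
    _ = ip f (H f) := h3

variable {ι : Type*} [Fintype ι] [DecidableEq ι]

/-- Combination: pair projections `P p` whose triples have no spectrum in `(0, 1)` and whose
disjoint products satisfy `c * ∑_p ⟨f, P_p f⟩ ≤ ∑_{p, q disjoint} ⟨P_p f, P_q f⟩` for all `f`
(`0 ≤ c`) have gap `1 + c` above their common kernel: if `Pi` is symmetric, is killed by every
`P p` and fixes the common kernel, then `(1 + c) (1 - Pi) ≤ ∑_p P_p`. -/
theorem gap_of_knabe_par (P Q : Finset ι → (Ω → ℝ) →ₗ[ℝ] (Ω → ℝ)) (c : ℝ) (hc : 0 ≤ c)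
    (hsymm : ∀ p, p.card = 2 → ∀ f g, ip f (P p g) = ip (P p f) g)
    (hidem : ∀ p, p.card = 2 → ∀ f, P p (P p f) = P p f)
    (hQsymm : ∀ T, T.card = 3 → ∀ f g, ip f (Q T g) = ip (Q T f) g)
    (hQidem : ∀ T, T.card = 3 → ∀ f, Q T (Q T f) = Q T f)
    (hPQ : ∀ T, T.card = 3 → ∀ p ∈ T.powersetCard 2, ∀ f, P p (Q T f) = 0)
    (htriple : ∀ T, T.card = 3 → ∀ f,
      ip f f - ip f (Q T f) ≤ ∑ p ∈ T.powersetCard 2, ip f (P p f))
    (hpar : ∀ f : Ω → ℝ, c * ∑ p ∈ (univ : Finset ι).powersetCard 2, ip f (P p f) ≤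
      ∑ p ∈ (univ : Finset ι).powersetCard 2, ∑ q ∈ (univ : Finset ι).powersetCard 2,
        (if Disjoint p q then ip (P p f) (P q f) else 0))
    (Pi : (Ω → ℝ) →ₗ[ℝ] (Ω → ℝ)) (hPi : ∀ f g, ip f (Pi g) = ip (Pi f) g)
    (hPPi : ∀ p, p.card = 2 → ∀ f, P p (Pi f) = 0)
    (hker : ∀ f, (∀ p, p.card = 2 → P p f = 0) → Pi f = f)
    (f : Ω → ℝ) :
    (1 + c) * (ip f f - ip f (Pi f)) ≤ ∑ p ∈ (univ : Finset ι).powersetCard 2, ip f (P p f) := by
  classical
  set PP : Finset (Finset ι) := (univ : Finset ι).powersetCard 2 with hPP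
  have hc2 : ∀ p ∈ PP, p.card = 2 := fun p hp => (Finset.mem_powersetCard.mp hp).2
  set H : (Ω → ℝ) →ₗ[ℝ] (Ω → ℝ) := ∑ p ∈ PP, P p with hHdef
  have hHapp : ∀ g, H g = ∑ p ∈ PP, P p g := by
    intro g
    rw [hHdef, LinearMap.sum_apply]
  have hself : ∀ p ∈ PP, ∀ g, ip g (P p g) = ip (P p g) (P p g) := by
    intro p hp g
    rw [← hsymm p (hc2 p hp), hidem p (hc2 p hp)]
  have hHform : ∀ g, ip g (H g) = ∑ p ∈ PP, ip g (P p g) := by
    intro g
    rw [hHapp, ip_sum_right]
  have key := gap_of_sq_const H Pi (1 + c) (by linarith)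
    (by
      intro g h
      rw [hHapp, hHapp, ip_sum_right, ip_sum_left]
      exact Finset.sum_congr rfl (fun p hp => hsymm p (hc2 p hp) g h))
    hPi
    (by
      intro g
      rw [hHapp]
      exact Finset.sum_eq_zero (fun p hp => hPPi p (hc2 p hp) g))
    (by
      intro g
      rw [hHform]
      refine Finset.sum_nonneg (fun p hp => ?_)
      rw [hself p hp]
      exact ip_self_nonneg _)
    (by
      intro g
      have h := knabe_par P Q c hsymm hidem hQsymm hQidem hPQ htriple g (hpar g)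
      rw [← hPP, ← hHapp] at h
      exact h)
    (by
      intro g hg
      apply hker
      intro p hp2
      have hp : p ∈ PP := by
        rw [hPP, Finset.mem_powersetCard]
        exact ⟨Finset.subset_univ _, hp2⟩
      have h0 : ∑ q ∈ PP, ip g (P q g) = 0 := by
        rw [← hHform, hg, ip_zero_right]
      have hnn : ∀ q ∈ PP, 0 ≤ ip g (P q g) := by
        intro q hq
        rw [hself q hq]
        exact ip_self_nonneg _
      have h1 := (Finset.sum_eq_zero_iff_of_nonneg hnn).mp h0 p hp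
      rw [hself p hp] at h1
      exact ip_self_eq_zero.mp h1)
    f
  rw [hHform] at key
  exact key

end gap

end Vale.Agent.Lib.P335.H85
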