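import Mathlib
import Vale.Agent.Lib.P335.helper85.TauDefs
import Vale.Agent.Lib.P335.helper45.PairDefs
import Vale.Agent.Lib.P335.helper25.JFibre

/-!
Graph case of P335: the Johnson-type inequality (J) for the pair fibres of `Omega n d`.

For `x ≠ y` and every `f`, the correction terms `K x y z w f` of the pairwise inequality,
summed over all ordered pairs `(z, w)` of distinct vertices outside `{x, y}`, are bounded by
one quarter of the sum of the switch energies `∑_G (f G - f (tau x y z w G)) ^ 2`.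

The proof applies the abstract fibre inequality `H25.J_fibre` on every class of `G - {x, y}`:
the active vertices (joined to exactly one of `x, y`) are the same for all graphs of a class,
the number of active neighbours of `x` is constant on the class, and `tau x y z w` acts on the
active neighbourhood of `x` as the transposition of `z` and `w`.
-/

namespace Vale.Agent.Lib.P335.H85

open Finset
open scoped Classical
open Vale.Agent.Lib.P335 Vale.Agent.Lib.P335.Bip Vale.Agent.Lib.P335.Gr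

set_option linter.unusedSectionVars false

variable {n : ℕ}

/-! ### Bridge between the two descriptions of the switch -/

theorem sep_iff (x y z w : Fin n) (G : SimpleGraph (Fin n)) :
    H45G.Sep x y z w G ↔ Mat1 x y z w G ∨ Mat1 x y w z G := Iff.rfl

theorem isCross_iff {x y z w a b : Fin n} :
    H45G.IsCross x y z w a b ↔
      s(a, b) = s(x, z) ∨ s(a, b) = s(x, w) ∨ s(a, b) = s(y, z) ∨ s(a, b) = s(y, w) := by
  unfold H45G.IsCross
  simp only [Sym2.eq_iff]
  tauto

theorem h45_tauG_of_not_sep {x y z w : Fin n} {G : SimpleGraph (Fin n)}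
    (h : ¬ H45G.Sep x y z w G) : H45G.tauG x y z w G = G := by
  ext a b
  rw [H45G.tauG_adj]
  constructor
  · rintro ⟨-, h2⟩
    exact h2.mpr (fun h3 => h h3.1)
  · intro h2
    exact ⟨G.ne_of_adj h2, fun _ => fun h3 => h h3.1, fun _ => h2⟩

theorem bridge_tauG {x y z w : Fin n} (h4 : Four x y z w) (G : SimpleGraph (Fin n)) :
    H45G.tauG x y z w G = tauG x y z w G := by
  by_cases c1 : Mat1 x y z w G
  · rw [tauG_pos c1]
    have hsep : H45G.Sep x y z w G := Or.inl c1
    obtain ⟨g1, g2, g3, g4⟩ := c1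
    ext a b
    rw [H45G.tauG_adj, swG_adj G h4.xw h4.yz.symm, isCross_iff]
    have key : ∀ u v : Fin n, s(a, b) = s(u, v) → (G.Adj a b ↔ G.Adj u v) := by
      intro u v h
      rw [← SimpleGraph.mem_edgeSet, ← SimpleGraph.mem_edgeSet, h]
    have k1 := key x z
    have k2 := key x w
    have k3 := key y z
    have k4 := key y w
    have hne := G.ne_of_adj (a := a) (b := b)
    have n2 : s(a, b) = s(x, w) → a ≠ b := by
      intro h hab
      subst hab
      rcases Sym2.eq_iff.mp h with ⟨h1, h2⟩ | ⟨h1, h2⟩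
      · exact h4.xw (h1.symm.trans h2)
      · exact h4.xw (h2.symm.trans h1)
    have n3 : s(a, b) = s(y, z) → a ≠ b := by
      intro h hab
      subst hab
      rcases Sym2.eq_iff.mp h with ⟨h1, h2⟩ | ⟨h1, h2⟩
      · exact h4.yz (h1.symm.trans h2)
      · exact h4.yz (h2.symm.trans h1)
    have e3 : s(a, b) = s(z, y) ↔ s(a, b) = s(y, z) := by rw [Sym2.eq_swap (a := z)]
    have e4 : s(a, b) = s(w, y) ↔ s(a, b) = s(y, w) := by rw [Sym2.eq_swap (a := w)]
    grind
  · by_cases c2 : Mat1 x y w z G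
    · rw [tauG_pos' c2]
      have hsep : H45G.Sep x y z w G := Or.inr c2
      obtain ⟨g1, g2, g3, g4⟩ := c2
      ext a b
      rw [H45G.tauG_adj, swG_adj G h4.xz h4.yw.symm, isCross_iff]
      have key : ∀ u v : Fin n, s(a, b) = s(u, v) → (G.Adj a b ↔ G.Adj u v) := by
        intro u v h
        rw [← SimpleGraph.mem_edgeSet, ← SimpleGraph.mem_edgeSet, h]
      have k1 := key x z
      have k2 := key x w
      have k3 := key y z
      have k4 := key y w
      have hne := G.ne_of_adj (a := a) (b := b)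
      have n2 : s(a, b) = s(x, z) → a ≠ b := by
        intro h hab
        subst hab
        rcases Sym2.eq_iff.mp h with ⟨h1, h2⟩ | ⟨h1, h2⟩
        · exact h4.xz (h1.symm.trans h2)
        · exact h4.xz (h2.symm.trans h1)
      have n3 : s(a, b) = s(y, w) → a ≠ b := by
        intro h hab
        subst hab
        rcases Sym2.eq_iff.mp h with ⟨h1, h2⟩ | ⟨h1, h2⟩
        · exact h4.yw (h1.symm.trans h2)
        · exact h4.yw (h2.symm.trans h1)
      have e3 : s(a, b) = s(z, y) ↔ s(a, b) = s(y, z) := by rw [Sym2.eq_swap (a := z)]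
      have e4 : s(a, b) = s(w, y) ↔ s(a, b) = s(y, w) := by rw [Sym2.eq_swap (a := w)]
      grind
    · rw [tauG_neg c1 c2]
      apply h45_tauG_of_not_sep
      rw [sep_iff]
      tauto

variable {d : Fin n → ℕ}

theorem h45_tau_of_not_sep {x y z w : Fin n} {G : Omega n d}
    (h : ¬ H45G.Sep x y z w G.1) : H45G.tau x y z w G = G := by
  unfold H45G.tau
  split_ifs with hdeg
  · apply Subtype.ext
    exact h45_tauG_of_not_sep h
  · rfl

theorem bridge_tau {x y z w : Fin n} (h4 : Four x y z w) (G : Omega n d) :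
    H45G.tau x y z w G = tau x y z w G := by
  have hdeg : ∀ v, (H45G.tauG x y z w G.1).degree v = d v := by
    intro v
    rw [bridge_tauG h4, ← G.2 v]
    convert tauG_degree h4 G.1 v
  unfold H45G.tau
  rw [dif_pos hdeg]
  apply Subtype.ext
  rw [tau_val h4]
  exact bridge_tauG h4 G.1

/-! ### Degree counting on a class of `G - {x, y}` -/

/-- The degree of `v` split into the contributions of `x`, of `y` and of the other vertices. -/
theorem degree_split_pair (G : SimpleGraph (Fin n)) {x y : Fin n} (hxy : x ≠ y) (v : Fin n) :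
    G.degree v = (if G.Adj v x then 1 else 0) + (if G.Adj v y then 1 else 0)
      + (univ.filter (fun u => u ≠ x ∧ u ≠ y ∧ G.Adj v u)).card := by
  rw [degree_eq_card, Finset.card_filter, Finset.card_filter]
  have h : ∀ u : Fin n, (if G.Adj v u then 1 else 0 : ℕ)
      = (if u = x then (if G.Adj v x then 1 else 0) else 0)
        + (if u = y then (if G.Adj v y then 1 else 0) else 0)
        + (if u ≠ x ∧ u ≠ y ∧ G.Adj v u then 1 else 0) := by
    intro u
    by_cases hux : u = x
    · subst hux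
      simp [hxy]
    · by_cases huy : u = y
      · subst huy
        simp [hux]
      · simp [hux, huy]
  rw [Finset.sum_congr rfl (fun u _ => h u), Finset.sum_add_distrib, Finset.sum_add_distrib,
    Finset.sum_ite_eq', Finset.sum_ite_eq']
  simp

/-- On a class of `G - {x, y}` the number of neighbours of `v` among `x, y` is constant. -/
theorem cross_count {x y : Fin n} (hxy : x ≠ y) {G G' : Omega n d}
    (hm : gmask {x, y} G.1 = gmask {x, y} G'.1) {v : Fin n} (hvx : v ≠ x) (hvy : v ≠ y) :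
    (if G.1.Adj x v then 1 else 0 : ℕ) + (if G.1.Adj y v then 1 else 0)
      = (if G'.1.Adj x v then 1 else 0) + (if G'.1.Adj y v then 1 else 0) := by
  have e1 := degree_split_pair G.1 hxy v
  have e2 := degree_split_pair G'.1 hxy v
  rw [G.2 v] at e1
  rw [G'.2 v] at e2
  have e3 : univ.filter (fun u => u ≠ x ∧ u ≠ y ∧ G.1.Adj v u)
      = univ.filter (fun u => u ≠ x ∧ u ≠ y ∧ G'.1.Adj v u) := by
    ext u
    simp only [mem_filter, mem_univ, true_and]
    rw [gmask_eq_iff] at hm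
    have hv : v ∉ ({x, y} : Finset (Fin n)) := by simp [hvx, hvy]
    constructor
    · rintro ⟨h1, h2, h3⟩
      exact ⟨h1, h2, (hm v u hv (by simp [h1, h2])).mp h3⟩
    · rintro ⟨h1, h2, h3⟩
      exact ⟨h1, h2, (hm v u hv (by simp [h1, h2])).mpr h3⟩
  rw [e3] at e1
  rw [G.1.adj_comm x v, G.1.adj_comm y v, G'.1.adj_comm x v, G'.1.adj_comm y v]
  omega

/-- On a class of `G - {x, y}` the vertex `v` is active (joined to exactly one of `x, y`)
for all graphs or for none. -/
theorem act_iff {x y : Fin n} (hxy : x ≠ y) {G G' : Omega n d}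
    (hm : gmask {x, y} G.1 = gmask {x, y} G'.1) {v : Fin n} (hvx : v ≠ x) (hvy : v ≠ y) :
    (G.1.Adj x v ↔ G.1.Adj y v) ↔ (G'.1.Adj x v ↔ G'.1.Adj y v) := by
  have h := cross_count hxy hm hvx hvy
  by_cases a1 : G.1.Adj x v <;> by_cases a2 : G.1.Adj y v <;> by_cases a3 : G'.1.Adj x v <;>
    by_cases a4 : G'.1.Adj y v <;> simp [a1, a2, a3, a4] at h ⊢

/-- On a class of `G - {x, y}` the edges from `x` to the inactive vertices are constant. -/
theorem inact_adj {x y : Fin n} (hxy : x ≠ y) {G G' : Omega n d}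
    (hm : gmask {x, y} G.1 = gmask {x, y} G'.1) {v : Fin n} (hvx : v ≠ x) (hvy : v ≠ y)
    (hin : G.1.Adj x v ↔ G.1.Adj y v) : G.1.Adj x v ↔ G'.1.Adj x v := by
  have h := cross_count hxy hm hvx hvy
  by_cases a1 : G.1.Adj x v <;> by_cases a2 : G.1.Adj y v <;> by_cases a3 : G'.1.Adj x v <;>
    by_cases a4 : G'.1.Adj y v <;> simp [a1, a2, a3, a4] at h hin ⊢

/-- On a class of `G - {x, y}` the pair `xy` is an edge for all graphs or for none. -/
theorem edge_xy {x y : Fin n} (hxy : x ≠ y) {G G' : Omega n d}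
    (hm : gmask {x, y} G.1 = gmask {x, y} G'.1) : G.1.Adj x y ↔ G'.1.Adj x y := by
  have key : ∀ H : Omega n d, d x + d y = 2 * (if H.1.Adj x y then 1 else 0)
      + ∑ u, (if u ≠ x ∧ u ≠ y then
          ((if H.1.Adj x u then 1 else 0) + (if H.1.Adj y u then 1 else 0)) else 0) := by
    intro H
    have e1 := degree_split_pair H.1 hxy x
    have e2 := degree_split_pair H.1 hxy y
    rw [H.2 x] at e1
    rw [H.2 y] at e2
    rw [Finset.card_filter] at e1 e2
    have e3 : ∑ u, (if u ≠ x ∧ u ≠ y then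
          ((if H.1.Adj x u then 1 else 0) + (if H.1.Adj y u then 1 else 0)) else 0)
        = ∑ u, (if u ≠ x ∧ u ≠ y ∧ H.1.Adj x u then 1 else 0)
          + ∑ u, (if u ≠ x ∧ u ≠ y ∧ H.1.Adj y u then 1 else 0) := by
      rw [← Finset.sum_add_distrib]
      refine Finset.sum_congr rfl (fun u _ => ?_)
      by_cases h1 : u ≠ x <;> by_cases h2 : u ≠ y <;> simp [h1, h2]
    have e4 : ¬ H.1.Adj x x := H.1.loopless.irrefl x
    have e5 : ¬ H.1.Adj y y := H.1.loopless.irrefl y
    rw [if_neg e4] at e1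
    rw [if_neg e5, H.1.adj_comm y x] at e2
    rw [e3]
    omega
  have k1 := key G
  have k2 := key G'
  have e : ∑ u, (if u ≠ x ∧ u ≠ y then
          ((if G.1.Adj x u then 1 else 0) + (if G.1.Adj y u then 1 else 0)) else 0)
      = ∑ u, (if u ≠ x ∧ u ≠ y then
          ((if G'.1.Adj x u then 1 else 0) + (if G'.1.Adj y u then 1 else 0)) else 0) := by
    refine Finset.sum_congr rfl (fun u _ => ?_)
    by_cases h1 : u ≠ x ∧ u ≠ y
    · rw [if_pos h1, if_pos h1]
      exact cross_count hxy hm h1.1 h1.2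
    · rw [if_neg h1, if_neg h1]
  rw [e] at k1
  by_cases h1 : G.1.Adj x y <;> by_cases h2 : G'.1.Adj x y <;> simp [h1, h2] at k1 k2 ⊢ <;> omega

/-- On a class of `G - {x, y}` the number of active neighbours of `x` is constant. -/
theorem active_count {x y : Fin n} (hxy : x ≠ y) {G G' : Omega n d}
    (hm : gmask {x, y} G.1 = gmask {x, y} G'.1) :
    (univ.filter (fun v => v ≠ x ∧ v ≠ y ∧ ¬ (G.1.Adj x v ↔ G.1.Adj y v) ∧ G.1.Adj x v)).card
      = (univ.filter
          (fun v => v ≠ x ∧ v ≠ y ∧ ¬ (G'.1.Adj x v ↔ G'.1.Adj y v) ∧ G'.1.Adj x v)).card := by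
  have key : ∀ H : Omega n d, d x = (if H.1.Adj x y then 1 else 0)
      + (univ.filter
          (fun v => v ≠ x ∧ v ≠ y ∧ ¬ (H.1.Adj x v ↔ H.1.Adj y v) ∧ H.1.Adj x v)).card
      + (univ.filter
          (fun v => v ≠ x ∧ v ≠ y ∧ (H.1.Adj x v ↔ H.1.Adj y v) ∧ H.1.Adj x v)).card := by
    intro H
    have e1 := degree_split_pair H.1 hxy x
    rw [H.2 x] at e1
    have e2 := Finset.card_filter_add_card_filter_not
      (s := univ.filter (fun u => u ≠ x ∧ u ≠ y ∧ H.1.Adj x u))
      (fun v => ¬ (H.1.Adj x v ↔ H.1.Adj y v))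
    have e3 : (univ.filter (fun u => u ≠ x ∧ u ≠ y ∧ H.1.Adj x u)).filter
          (fun v => ¬ (H.1.Adj x v ↔ H.1.Adj y v))
        = univ.filter
          (fun v => v ≠ x ∧ v ≠ y ∧ ¬ (H.1.Adj x v ↔ H.1.Adj y v) ∧ H.1.Adj x v) := by
      ext v
      simp only [mem_filter, mem_univ, true_and]
      tauto
    have e4 : (univ.filter (fun u => u ≠ x ∧ u ≠ y ∧ H.1.Adj x u)).filter
          (fun v => ¬ ¬ (H.1.Adj x v ↔ H.1.Adj y v))
        = univ.filter
          (fun v => v ≠ x ∧ v ≠ y ∧ (H.1.Adj x v ↔ H.1.Adj y v) ∧ H.1.Adj x v) := by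
      ext v
      simp only [mem_filter, mem_univ, true_and]
      tauto
    rw [e3, e4] at e2
    have e5 : ¬ H.1.Adj x x := H.1.loopless.irrefl x
    rw [if_neg e5] at e1
    omega
  have k1 := key G
  have k2 := key G'
  have e3 : univ.filter
        (fun v => v ≠ x ∧ v ≠ y ∧ (G.1.Adj x v ↔ G.1.Adj y v) ∧ G.1.Adj x v)
      = univ.filter
        (fun v => v ≠ x ∧ v ≠ y ∧ (G'.1.Adj x v ↔ G'.1.Adj y v) ∧ G'.1.Adj x v) := by
    ext v
    simp only [mem_filter, mem_univ, true_and]
    constructor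
    · rintro ⟨h1, h2, h3, h4⟩
      exact ⟨h1, h2, (act_iff hxy hm h1 h2).mp h3, (inact_adj hxy hm h1 h2 h3).mp h4⟩
    · rintro ⟨h1, h2, h3, h4⟩
      exact ⟨h1, h2, (act_iff hxy hm h1 h2).mpr h3, (inact_adj hxy hm.symm h1 h2 h3).mp h4⟩
  have e4 := edge_xy hxy hm
  have e5 : (if G.1.Adj x y then 1 else 0 : ℕ) = (if G'.1.Adj x y then 1 else 0) := by
    by_cases h : G'.1.Adj x y
    · rw [if_pos h, if_pos (e4.mpr h)]
    · rw [if_neg h, if_neg (fun h' => h (e4.mp h'))]
  rw [e3, e5] at k1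
  omega

/-! ### The fibre inequality -/

/-- The active vertices of the pair `{x, y}` in `G0`: the vertices outside the pair joined
to exactly one of `x, y`. -/
noncomputable def act (x y : Fin n) (G0 : Omega n d) : Finset (Fin n) :=
  univ.filter (fun v => v ≠ x ∧ v ≠ y ∧ ¬ (G0.1.Adj x v ↔ G0.1.Adj y v))

/-- The class of `G0` for the map `G ↦ G - {x, y}`. -/
noncomputable def cls (x y : Fin n) (G0 : Omega n d) : Finset (Omega n d) :=
  univ.filter (fun G => gmask {x, y} G.1 = gmask {x, y} G0.1)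

theorem mem_act {x y : Fin n} {G0 : Omega n d} {v : Fin n} :
    v ∈ act x y G0 ↔ v ≠ x ∧ v ≠ y ∧ ¬ (G0.1.Adj x v ↔ G0.1.Adj y v) := by
  unfold act
  rw [mem_filter]
  simp

theorem mem_cls {x y : Fin n} {G0 G : Omega n d} :
    G ∈ cls x y G0 ↔ gmask {x, y} G.1 = gmask {x, y} G0.1 := by
  unfold cls
  rw [mem_filter]
  simp

theorem four_of_act {x y z w : Fin n} {G0 : Omega n d} (hz : z ∈ act x y G0)
    (hw : w ∈ act x y G0) (hzw : z ≠ w) : Four x y z w := by
  rw [mem_act] at hz hw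
  refine ⟨?_, hz.1.symm, hw.1.symm, hz.2.1.symm, hw.2.1.symm, hzw⟩
  rintro rfl
  exact hz.2.2 Iff.rfl

theorem act_of_mem {x y : Fin n} (hxy : x ≠ y) {G0 G : Omega n d} (hG : G ∈ cls x y G0)
    {v : Fin n} (hv : v ∈ act x y G0) : ¬ (G.1.Adj x v ↔ G.1.Adj y v) := by
  rw [mem_act] at hv
  rw [mem_cls] at hG
  rw [act_iff hxy hG hv.1 hv.2.1]
  exact hv.2.2

theorem not_sep_self {x y z : Fin n} (G : SimpleGraph (Fin n)) : ¬ H45G.Sep x y z z G := by
  unfold H45G.Sep
  tauto

/-- The abstract fibre inequality on a class of `G - {x, y}`. -/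
theorem fibre_J {x y : Fin n} (hxy : x ≠ y) (G0 : Omega n d) (f : Omega n d → ℝ) :
    ∑ z ∈ act x y G0, ∑ w ∈ act x y G0,
        (∑ G ∈ H25.XX (cls x y G0) (fun G v => G.1.Adj x v) z w,
          (f G - (∑ G' ∈ cls x y G0, f G') / ((cls x y G0).card : ℝ))) ^ 2 /
          ((H25.XX (cls x y G0) (fun G v => G.1.Adj x v) z w).card : ℝ)
      ≤ (1 / 4) * ∑ z ∈ act x y G0, ∑ w ∈ act x y G0,
          if z ≠ w then ∑ G ∈ cls x y G0, (f G - f (H45G.tau x y z w G)) ^ 2 else 0 := by
  apply H25.J_fibre (cls x y G0) (act x y G0) (fun G v => G.1.Adj x v)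
    (fun z w => H45G.tau x y z w)
  · -- hmem
    intro z hz w hw G hG
    by_cases hzw : z = w
    · subst hzw
      rw [h45_tau_of_not_sep (not_sep_self G.1)]
      exact hG
    · have h4 := four_of_act hz hw hzw
      rw [bridge_tau h4, mem_cls, tau_gmask_xy]
      exact mem_cls.mp hG
  · -- hinv
    intro z hz w hw G hG
    by_cases hzw : z = w
    · subst hzw
      rw [h45_tau_of_not_sep (not_sep_self G.1), h45_tau_of_not_sep (not_sep_self G.1)]
    · have h4 := four_of_act hz hw hzw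
      rw [bridge_tau h4, bridge_tau h4, tau_invol]
  · -- hbit
    intro z hz w hw hzw G hG v _
    have h4 := four_of_act hz hw hzw
    rw [bridge_tau h4]
    exact tau_bit h4 G (act_of_mem hxy hG hz) (act_of_mem hxy hG hw) v
  · -- hcnt
    intro G hG G' hG'
    have key : ∀ H : Omega n d, H ∈ cls x y G0 →
        (act x y G0).filter (fun v => H.1.Adj x v) = univ.filter
          (fun v => v ≠ x ∧ v ≠ y ∧ ¬ (H.1.Adj x v ↔ H.1.Adj y v) ∧ H.1.Adj x v) := by
      intro H hH
      ext v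
      rw [mem_filter, mem_act, mem_filter]
      simp only [mem_univ, true_and]
      constructor
      · rintro ⟨⟨h1, h2, h3⟩, h4⟩
        refine ⟨h1, h2, ?_, h4⟩
        rw [act_iff hxy (mem_cls.mp hH) h1 h2]
        exact h3
      · rintro ⟨h1, h2, h3, h4⟩
        refine ⟨⟨h1, h2, ?_⟩, h4⟩
        rw [← act_iff hxy (mem_cls.mp hH) h1 h2]
        exact h3
    rw [key G hG, key G' hG']
    exact active_count hxy ((mem_cls.mp hG).trans (mem_cls.mp hG').symm)

/-- On a class, for active `z ≠ w`, the event `Sep` says that `x` is joined to exactly one of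
`z, w`. -/
theorem sep_iff_of_act {x y z w : Fin n} (hxy : x ≠ y) {G0 G : Omega n d}
    (hG : G ∈ cls x y G0) (hz : z ∈ act x y G0) (hw : w ∈ act x y G0) :
    H45G.Sep x y z w G.1 ↔ ¬ (G.1.Adj x z ↔ G.1.Adj x w) := by
  have a1 := act_of_mem hxy hG hz
  have a2 := act_of_mem hxy hG hw
  unfold H45G.Sep
  grind

/-- If `z` or `w` is not active, `Sep` fails on the whole class. -/
theorem not_sep_of_not_act {x y z w : Fin n} (hxy : x ≠ y) {G0 G : Omega n d}
    (hG : G ∈ cls x y G0) (hC : x ≠ z ∧ x ≠ w ∧ y ≠ z ∧ y ≠ w ∧ z ≠ w)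
    (h : ¬ (z ∈ act x y G0 ∧ w ∈ act x y G0)) : ¬ H45G.Sep x y z w G.1 := by
  intro hsep
  apply h
  rw [mem_act, mem_act]
  obtain ⟨c1, c2, c3, c4, c5⟩ := hC
  rw [mem_cls] at hG
  refine ⟨⟨c1.symm, c3.symm, ?_⟩, ⟨c2.symm, c4.symm, ?_⟩⟩
  · rw [← act_iff hxy hG c1.symm c3.symm]
    unfold H45G.Sep at hsep
    tauto
  · rw [← act_iff hxy hG c2.symm c4.symm]
    unfold H45G.Sep at hsep
    tauto

/-- Identification of the correction term on a class with the term of `H25.J_fibre`. -/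
theorem K_fibre {x y z w : Fin n} (hxy : x ≠ y) (G0 : Omega n d)
    (hz : z ∈ act x y G0) (hw : w ∈ act x y G0) (f : Omega n d → ℝ) :
    ∑ G ∈ cls x y G0, (if H45G.Sep x y z w G.1 then
        (H45G.GRX x y z w f G - GR {x, y} f G) ^ 2 else 0)
      = (∑ G ∈ H25.XX (cls x y G0) (fun G v => G.1.Adj x v) z w,
          (f G - (∑ G' ∈ cls x y G0, f G') / ((cls x y G0).card : ℝ))) ^ 2 /
          ((H25.XX (cls x y G0) (fun G v => G.1.Adj x v) z w).card : ℝ) := by
  set Φ := cls x y G0 with hΦ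
  set X := H25.XX Φ (fun G v => G.1.Adj x v) z w with hX
  set c : ℝ := (∑ G' ∈ Φ, f G') / (Φ.card : ℝ) with hc
  have hXmem : ∀ G, G ∈ X ↔ G ∈ Φ ∧ H45G.Sep x y z w G.1 := by
    intro G
    rw [hX, H25.mem_XX]
    constructor
    · rintro ⟨h1, h2⟩
      exact ⟨h1, (sep_iff_of_act hxy h1 hz hw).mpr h2⟩
    · rintro ⟨h1, h2⟩
      exact ⟨h1, (sep_iff_of_act hxy h1 hz hw).mp h2⟩
  have hfilt : Φ.filter (fun G => H45G.Sep x y z w G.1) = X := by
    ext G
    rw [mem_filter, hXmem]
  have hGR : ∀ G ∈ Φ, GR {x, y} f G = c := by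
    intro G hG
    rw [GR_apply, hc]
    have e : univ.filter (fun G' : Omega n d => gmask {x, y} G'.1 = gmask {x, y} G.1) = Φ := by
      ext G'
      rw [mem_filter, hΦ, mem_cls, mem_cls.mp hG]
      simp
    rw [e]
  have hGRX : ∀ G ∈ X, H45G.GRX x y z w f G = (∑ G' ∈ X, f G') / (X.card : ℝ) := by
    intro G hG
    have hG' := (hXmem G).mp hG
    unfold H45G.GRX
    rw [cexp_apply]
    have e : univ.filter (fun G' : Omega n d =>
        (gmask {x, y} G'.1, H45G.Sep x y z w G'.1) = (gmask {x, y} G.1, H45G.Sep x y z w G.1))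
        = X := by
      ext G'
      rw [mem_filter, hXmem, hΦ, mem_cls, Prod.mk.injEq, mem_cls.mp hG'.1]
      simp only [mem_univ, true_and, eq_iff_iff]
      constructor
      · rintro ⟨h1, h2⟩
        exact ⟨h1, h2.mpr hG'.2⟩
      · rintro ⟨h1, h2⟩
        exact ⟨h1, ⟨fun _ => hG'.2, fun _ => h2⟩⟩
    rw [e]
  rw [← Finset.sum_filter, hfilt]
  have h1 : ∑ G ∈ X, (H45G.GRX x y z w f G - GR {x, y} f G) ^ 2
      = ∑ G ∈ X, ((∑ G' ∈ X, f G') / (X.card : ℝ) - c) ^ 2 := by
    refine Finset.sum_congr rfl (fun G hG => ?_)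
    rw [hGRX G hG, hGR G ((hXmem G).mp hG).1]
  rw [h1, Finset.sum_const, nsmul_eq_mul, Finset.sum_sub_distrib, Finset.sum_const, nsmul_eq_mul]
  by_cases hX0 : (X.card : ℝ) = 0
  · rw [hX0]
    simp
  · field_simp

/-- Summation over the classes of a map: a classwise inequality gives the global one. -/
theorem sum_le_of_classes {Ω κT : Type*} [Fintype Ω] [DecidableEq κT] (κ : Ω → κT)
    (a b : Ω → ℝ)
    (h : ∀ G0 : Ω, ∑ G ∈ univ.filter (fun G => κ G = κ G0), a G
      ≤ ∑ G ∈ univ.filter (fun G => κ G = κ G0), b G) :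
    ∑ G, a G ≤ ∑ G, b G := by
  rw [← sum_cexp κ a, ← sum_cexp κ b]
  refine Finset.sum_le_sum (fun G0 _ => ?_)
  rw [cexp_apply, cexp_apply]
  exact div_le_div_of_nonneg_right (h G0) (le_of_lt (fib_card_pos κ G0))

/-- **Inequality (J) for graphs.**  For `x ≠ y` the correction terms `K x y z w f`, summed over
the ordered pairs `(z, w)` of distinct vertices outside `{x, y}`, are at most one quarter of
the sum of the switch energies `∑_G (f G - f (tau x y z w G)) ^ 2` over the same pairs. -/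
theorem J_graph (x y : Fin n) (hxy : x ≠ y) (f : Omega n d → ℝ) :
    ∑ z, ∑ w, (if x ≠ z ∧ x ≠ w ∧ y ≠ z ∧ y ≠ w ∧ z ≠ w then H45G.K x y z w f else 0)
      ≤ (1 / 4) * ∑ z, ∑ w, (if x ≠ z ∧ x ≠ w ∧ y ≠ z ∧ y ≠ w ∧ z ≠ w then
          ∑ G : Omega n d, (f G - f (H45G.tau x y z w G)) ^ 2 else 0) := by
  set C : Fin n → Fin n → Prop := fun z w => x ≠ z ∧ x ≠ w ∧ y ≠ z ∧ y ≠ w ∧ z ≠ w with hC
  set kg : Fin n → Fin n → Omega n d → ℝ := fun z w G =>
    if H45G.Sep x y z w G.1 then (H45G.GRX x y z w f G - GR {x, y} f G) ^ 2 else 0 with hkg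
  set dg : Fin n → Fin n → Omega n d → ℝ :=
    fun z w G => (f G - f (H45G.tau x y z w G)) ^ 2 with hdg
  have hdg_nn : ∀ z w G, 0 ≤ dg z w G := fun z w G => sq_nonneg _
  have hL : ∑ z, ∑ w, (if C z w then H45G.K x y z w f else 0)
      = ∑ G : Omega n d, ∑ z, ∑ w, (if C z w then kg z w G else 0) := by
    symm
    refine Finset.sum_comm.trans ?_
    refine Finset.sum_congr rfl (fun z _ => ?_)
    refine Finset.sum_comm.trans ?_
    refine Finset.sum_congr rfl (fun w _ => ?_)
    by_cases h : C z w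
    · simp only [if_pos h]
      rfl
    · simp only [if_neg h, Finset.sum_const_zero]
  have hR : (1 / 4 : ℝ) * ∑ z, ∑ w, (if C z w then ∑ G : Omega n d, dg z w G else 0)
      = ∑ G : Omega n d, (1 / 4 : ℝ) * ∑ z, ∑ w, (if C z w then dg z w G else 0) := by
    rw [← Finset.mul_sum]
    refine congrArg (fun t : ℝ => (1 / 4 : ℝ) * t) ?_
    symm
    refine Finset.sum_comm.trans ?_
    refine Finset.sum_congr rfl (fun z _ => ?_)
    refine Finset.sum_comm.trans ?_
    refine Finset.sum_congr rfl (fun w _ => ?_)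
    by_cases h : C z w
    · simp only [if_pos h]
    · simp only [if_neg h, Finset.sum_const_zero]
  rw [hL, hR]
  apply sum_le_of_classes (fun G : Omega n d => gmask {x, y} G.1)
  intro G0
  change ∑ G ∈ cls x y G0, _ ≤ ∑ G ∈ cls x y G0, _
  set Φ := cls x y G0 with hΦ
  set A := act x y G0 with hA
  set T : Fin n → Fin n → ℝ := fun z w =>
    (∑ G ∈ H25.XX Φ (fun G v => G.1.Adj x v) z w,
      (f G - (∑ G' ∈ Φ, f G') / (Φ.card : ℝ))) ^ 2 /
      ((H25.XX Φ (fun G v => G.1.Adj x v) z w).card : ℝ) with hT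
  -- left side
  have e1 : ∑ G ∈ Φ, ∑ z, ∑ w, (if C z w then kg z w G else 0)
      = ∑ z, ∑ w, (if C z w then ∑ G ∈ Φ, kg z w G else 0) := by
    refine Finset.sum_comm.trans ?_
    refine Finset.sum_congr rfl (fun z _ => ?_)
    refine Finset.sum_comm.trans ?_
    refine Finset.sum_congr rfl (fun w _ => ?_)
    by_cases h : C z w
    · simp only [if_pos h]
    · simp only [if_neg h, Finset.sum_const_zero]
  have hF0 : ∀ z w, ¬ (z ∈ A ∧ w ∈ A) → (if C z w then ∑ G ∈ Φ, kg z w G else 0) = 0 := by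
    intro z w hzw
    by_cases h : C z w
    · rw [if_pos h]
      refine Finset.sum_eq_zero (fun G hG => ?_)
      rw [hkg]
      simp only
      rw [if_neg (not_sep_of_not_act hxy hG h hzw)]
    · rw [if_neg h]
  have hFT : ∀ z ∈ A, ∀ w ∈ A, (if C z w then ∑ G ∈ Φ, kg z w G else 0) = T z w := by
    intro z hz w hw
    by_cases hzw : z = w
    · subst hzw
      have hnC : ¬ C z z := fun h => h.2.2.2.2 rfl
      rw [if_neg hnC, hT]
      simp only
      rw [H25.XX_self]
      simp
    · have h4 := four_of_act hz hw hzw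
      have hCzw : C z w := ⟨h4.xz, h4.xw, h4.yz, h4.yw, h4.zw⟩
      rw [if_pos hCzw]
      exact K_fibre hxy G0 hz hw f
  have e2 : ∑ z, ∑ w, (if C z w then ∑ G ∈ Φ, kg z w G else 0) = ∑ z ∈ A, ∑ w ∈ A, T z w := by
    rw [← Finset.sum_subset (Finset.subset_univ A)
      (fun z _ hz => Finset.sum_eq_zero (fun w _ => hF0 z w (fun h => hz h.1)))]
    refine Finset.sum_congr rfl (fun z hz => ?_)
    rw [← Finset.sum_subset (Finset.subset_univ A) (fun w _ hw => hF0 z w (fun h => hw h.2))]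
    exact Finset.sum_congr rfl (fun w hw => hFT z hz w hw)
  -- right side
  have e3 : ∑ G ∈ Φ, (1 / 4 : ℝ) * ∑ z, ∑ w, (if C z w then dg z w G else 0)
      = (1 / 4 : ℝ) * ∑ z, ∑ w, (if C z w then ∑ G ∈ Φ, dg z w G else 0) := by
    rw [← Finset.mul_sum]
    refine congrArg (fun t : ℝ => (1 / 4 : ℝ) * t) ?_
    refine Finset.sum_comm.trans ?_
    refine Finset.sum_congr rfl (fun z _ => ?_)
    refine Finset.sum_comm.trans ?_
    refine Finset.sum_congr rfl (fun w _ => ?_)
    by_cases h : C z w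
    · simp only [if_pos h]
    · simp only [if_neg h, Finset.sum_const_zero]
  have hDnn : ∀ z w, 0 ≤ (if C z w then ∑ G ∈ Φ, dg z w G else 0) := by
    intro z w
    split_ifs
    · exact Finset.sum_nonneg (fun G _ => hdg_nn z w G)
    · exact le_refl _
  have e4 : ∑ z ∈ A, ∑ w ∈ A, (if z ≠ w then ∑ G ∈ Φ, dg z w G else 0)
      ≤ ∑ z, ∑ w, (if C z w then ∑ G ∈ Φ, dg z w G else 0) := by
    calc ∑ z ∈ A, ∑ w ∈ A, (if z ≠ w then ∑ G ∈ Φ, dg z w G else 0)
        ≤ ∑ z ∈ A, ∑ w, (if C z w then ∑ G ∈ Φ, dg z w G else 0) := by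
          refine Finset.sum_le_sum (fun z hz => ?_)
          calc ∑ w ∈ A, (if z ≠ w then ∑ G ∈ Φ, dg z w G else 0)
              ≤ ∑ w ∈ A, (if C z w then ∑ G ∈ Φ, dg z w G else 0) := by
                refine Finset.sum_le_sum (fun w hw => ?_)
                by_cases hzw : z = w
                · rw [if_neg (not_not.mpr hzw)]
                  exact hDnn z w
                · have h4 := four_of_act hz hw hzw
                  have hCzw : C z w := ⟨h4.xz, h4.xw, h4.yz, h4.yw, h4.zw⟩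
                  rw [if_pos hzw, if_pos hCzw]
            _ ≤ ∑ w, (if C z w then ∑ G ∈ Φ, dg z w G else 0) :=
                Finset.sum_le_sum_of_subset_of_nonneg (Finset.subset_univ A)
                  (fun w _ _ => hDnn z w)
      _ ≤ ∑ z, ∑ w, (if C z w then ∑ G ∈ Φ, dg z w G else 0) :=
          Finset.sum_le_sum_of_subset_of_nonneg (Finset.subset_univ A)
            (fun z _ _ => Finset.sum_nonneg (fun w _ => hDnn z w))
  rw [e1, e2, e3]
  calc ∑ z ∈ A, ∑ w ∈ A, T z w
      ≤ (1 / 4) * ∑ z ∈ A, ∑ w ∈ A, (if z ≠ w then ∑ G ∈ Φ, dg z w G else 0) :=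
        fibre_J hxy G0 f
    _ ≤ (1 / 4) * ∑ z, ∑ w, (if C z w then ∑ G ∈ Φ, dg z w G else 0) :=
        mul_le_mul_of_nonneg_left e4 (by norm_num)

end Vale.Agent.Lib.P335.H85
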